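import Vale.Agent.P281.H225.RC.Fub
import Vale.Agent.P281.H406.HK.Forms

/-!
# P281, project RADC (helper225), block R5b: proportionality on almost all fibres
-/

open Set Filter Metric MeasureTheory Vale.Agent.P272.K
open scoped Topology ContDiff ComplexConjugate ComplexOrder Pointwise

noncomputable section

namespace Vale.Agent.P281.H225.RC

open Vale.Agent.P281.H64.TK Vale.Agent.P281.H64.TK.TS Vale.Agent.P281.H83.HK
open Vale.Agent.P281.H83.HKT (W4 bT dF)
open Vale.Agent.P281.H399.QT (One1 Qs pj quo pj_eq kah_quo)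
open Vale.Agent.P281.H842.HKT (p1 p2 ap pe p1_ap p2_ap ap_p norm_eq mem_ball_iff ap_mem)
open Vale.Agent.P281.H751.HKT (rs rs_kf)
open Vale.Agent.P281.H152.RC
open Vale.Agent.P281.H225.R5

/-- densities are continuous -/
theorem W_contOn {d : ℕ} {X : Type} [TopologicalSpace X] {s : Set X} {A : X → Fin d → L2 d}
    (h : ∀ i v w, ContinuousOn (fun z => A z i v w) s) : ContinuousOn (fun z => W (A z)) s := by
  unfold W
  exact continuousOn_const.mul (continuousOn_finsetSum _ fun π _ =>
    continuousOn_const.mul (continuousOn_finsetProd _ fun i _ => h i _ _))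

theorem W3_contOn {d : ℕ} {X : Type} [TopologicalSpace X] {s : Set X} {x y k : X → L2 d}
    (hx : ContinuousOn x s) (hy : ContinuousOn y s) (hk : ContinuousOn k s) :
    ContinuousOn (fun z => W3 (x z) (y z) (k z)) s := by
  refine W_contOn fun i v w => ?_
  have h : ∀ {x : X → L2 d}, ContinuousOn x s → ContinuousOn (fun z => x z v w) s := fun hx =>
    (hx.clm_apply continuousOn_const).clm_apply continuousOn_const
  unfold abc
  split_ifs
  · exact h hx
  · exact h hy
  · exact h hk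

section
variable {a h : ℕ} {E K : Type} [TopologicalSpace E] [T2Space E] [Group K] [MulAction K E]
  {S : Sheets (a + h) E K} {F : E → Fin a → ℂ} {c : K → Fin a → ℂ} {t₀ : Cm a} {ε : ℝ} {n : ℕ}

theorem cl2_contOn {d : ℕ} {E Γ : Type} [TopologicalSpace E] [Group Γ] [MulAction Γ E]
    {S : Sheets d E Γ} {x : Fin S.N → Cm d → L2 d} (hx : Cl2 S x) (i : Fin S.N) :
    ContinuousOn (x i) (ball 0 3) :=
  fun z hz => (hx.smooth i z hz trivial).continuousAt.continuousWithinAt

/-- `dF` in an adapted sheet -/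
theorem dF_adp (hA : Adp S F c t₀ ε n) (i : Fin n) {z : Cm (a + h)}
    (hz : z ∈ ball (0 : Cm (a + h)) 3) :
    (∀ j k, dF S F (Fin.castLE hA.le i) z j (Fin.castAdd h k) = if j = k then (ε : ℂ) else 0) ∧
      ∀ j k, dF S F (Fin.castLE hA.le i) z j (Fin.natAdd a k) = 0 := by
  have h1 : ∀ j l, dF S F (Fin.castLE hA.le i) z j l = (ε : ℂ) * (Pi.single l (1 : ℂ) : Cm (a + h)) (Fin.castAdd h j) := by
    intro j l
    have h2 : (fun z => F (S.σ (Fin.castLE hA.le i) z) j) =ᶠ[𝓝 z]
        fun z => t₀ j + (ε : ℂ) * z (Fin.castAdd h j) := by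
      filter_upwards [isOpen_ball.mem_nhds hz] with w hw
      rw [hA.eq i w hw]
      rfl
    have h3 : HasFDerivAt (fun z : Cm (a + h) => t₀ j + (ε : ℂ) * z (Fin.castAdd h j))
        ((ε : ℂ) • (ContinuousLinearMap.proj (R := ℂ) (φ := fun _ : Fin (a + h) => ℂ)
          (Fin.castAdd h j))) z :=
      ((ContinuousLinearMap.proj (R := ℂ) (φ := fun _ : Fin (a + h) => ℂ)
        (Fin.castAdd h j)).hasFDerivAt.const_mul (ε : ℂ)).const_add (t₀ j)
    show fderiv ℂ (fun z => F (S.σ (Fin.castLE hA.le i) z) j) z (Pi.single l 1) = _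
    rw [h2.fderiv_eq, h3.fderiv]
    rfl
  constructor
  · intro j k
    rw [h1]
    by_cases hjk : j = k
    · subst hjk
      simp
    · have h2 : Fin.castAdd h j ≠ Fin.castAdd h k := fun e => hjk (Fin.castAdd_injective _ _ e)
      rw [Pi.single_eq_of_ne h2, mul_zero, if_neg hjk]
  · intro j k
    rw [h1]
    have h2 : Fin.castAdd h j ≠ Fin.natAdd a k := by
      intro e
      have h3 := congrArg Fin.val e
      simp at h3
      omega
    rw [Pi.single_eq_of_ne h2, mul_zero]

theorem rs_contOn {X : Type} [TopologicalSpace X] {s : Set X} {x : X → L2 (a + h)}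
    (hx : ContinuousOn x s) (v w : Cm h) :
    ContinuousOn (fun z => rs (x z) v w) s :=
  (hx.clm_apply continuousOn_const).clm_apply continuousOn_const

theorem W3rs_contOn {X : Type} [TopologicalSpace X] {s : Set X} {x y k : X → L2 (a + h)}
    (hx : ContinuousOn x s) (hy : ContinuousOn y s) (hk : ContinuousOn k s) :
    ContinuousOn (fun z => W3 (rs (x z)) (rs (y z)) (rs (k z))) s := by
  refine W_contOn fun i v w => ?_
  unfold abc
  split_ifs
  · exact rs_contOn hx v w
  · exact rs_contOn hy v w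
  · exact rs_contOn hk v w

/-- the integral over the quotient -/
theorem quo_int {d : ℕ} [ContinuousConstSMul K E] (S : Sheets d E K) (D : Fin S.N → Cm d → ℂ) :
    (quo S).int D = S.int D := by
  show ∑ i : Fin S.N, ∫ z in (quo S).P i, D i z = ∑ i : Fin S.N, ∫ z in S.P i, D i z
  exact Finset.sum_congr rfl fun i _ =>
    congrArg (fun P : Set (Cm d) => ∫ z in P, D i z) (quo_P S i)

end

/-- **R5b** -/
theorem prop_of (char : CharStmt) (alg : H152.RC.AlgStmt) : PropStmt := by
  intro a h E K _ _ _ _ _ _ S w M F c t₀ ε n hA x y h2 hw hb hfin hx hy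
  have hk : Cl2 (quo S) (kw w) := H406.HK.kw_cl2 (kah_quo hw)
  have e₀ : E := Classical.arbitrary E
  have cmul : ∀ k k' : K, c (k * k') = c k + c k' := by
    intro k k'
    have h1 := hA.add (k * k') e₀
    rw [mul_smul, hA.add, hA.add, add_assoc] at h1
    rw [add_comm (c k)]
    exact (add_left_cancel h1).symm
  have cone : c 1 = 0 := by
    have h1 := cmul 1 1
    rw [mul_one] at h1
    have : c 1 + 0 = c 1 + c 1 := by rw [add_zero]; exact h1
    exact (add_left_cancel this).symm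
  have cinv : ∀ k, c k⁻¹ = -c k := by
    intro k
    have h1 := cmul k⁻¹ k
    rw [inv_mul_cancel, cone] at h1
    exact eq_neg_of_add_eq_zero_left h1.symm
  let Λ : AddSubgroup (Cm a) :=
    { carrier := range c
      add_mem' := by
        rintro _ _ ⟨k, rfl⟩ ⟨k', rfl⟩
        exact ⟨k * k', cmul k k'⟩
      zero_mem' := ⟨1, cone⟩
      neg_mem' := by
        rintro _ ⟨k, rfl⟩
        exact ⟨k⁻¹, cinv k⟩ }
  have hε : ∀ l ∈ Λ, l ≠ 0 → 4 * ε ≤ ‖l‖ := by
    rintro _ ⟨k, rfl⟩ hl
    have h1 : k ≠ 1 := fun h1 => hl (by rw [h1, cone])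
    have h3 := hA.inj k h1
    have := hA.pos
    linarith
  have hΛ : IsClosed (Λ : Set (Cm a)) := by
    refine Metric.isClosed_of_pairwise_le_dist (ε := 4 * ε) (by have := hA.pos; linarith) ?_
    intro l hl l' hl' hne
    rw [dist_eq_norm]
    exact hε _ (Λ.sub_mem hl hl') (sub_ne_zero.2 hne)
  -- the densities in the adapted sheets
  have hdens : ∀ (x y k : Fin S.N → Cm (a + h) → L2 (a + h)) (i : Fin n), ∀ z ∈ ball (0 : Cm (a + h)) 3,
      W4 (dF S F (Fin.castLE hA.le i) z) (x (Fin.castLE hA.le i) z) (y (Fin.castLE hA.le i) z)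
        (k (Fin.castLE hA.le i) z) =
      ((ε ^ (2 * a) : ℝ) : ℂ) * W3 (rs (x (Fin.castLE hA.le i) z)) (rs (y (Fin.castLE hA.le i) z))
        (rs (k (Fin.castLE hA.le i) z)) := by
    intro x y k i z hz
    obtain ⟨g1, g2⟩ := dF_adp hA i hz
    exact alg a h ε _ h2 hA.pos g1 g2 _ _ _
  have hcont : ∀ (x y k : Fin S.N → Cm (a + h) → L2 (a + h)), Cl2 (quo S) x → Cl2 (quo S) y →
      Cl2 (quo S) k → ∀ i : Fin n, ContinuousOn (fun z => W4 (dF S F (Fin.castLE hA.le i) z)
        (x (Fin.castLE hA.le i) z) (y (Fin.castLE hA.le i) z) (k (Fin.castLE hA.le i) z))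
        (ball 0 3) := by
    intro x y k hx hy hk i
    have h1 := W3rs_contOn (cl2_contOn hx (Fin.castLE hA.le i)) (cl2_contOn hy (Fin.castLE hA.le i))
      (cl2_contOn hk (Fin.castLE hA.le i))
    exact (continuousOn_const.mul h1).congr fun z hz => hdens x y k i z hz
  -- the integral over a fibre
  have hslice : ∀ (x y k : Fin S.N → Cm (a + h) → L2 (a + h)) (t : Cm a)
      (ht : t ∈ ball (0 : Cm a) 1),
      ∑ i : Fin n, ∫ z in slc (S.P (Fin.castLE hA.le i)) t,
        W4 (dF S F (Fin.castLE hA.le i) (ap t z)) (x (Fin.castLE hA.le i) (ap t z))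
          (y (Fin.castLE hA.le i) (ap t z)) (k (Fin.castLE hA.le i) (ap t z)) =
      ((ε ^ (2 * a) : ℝ) : ℂ) * bW (fibS hA ht) (sl hA x t) (sl hA y t) (sl hA k t) := by
    intro x y k t ht
    have e1 : bW (fibS hA ht) (sl hA x t) (sl hA y t) (sl hA k t) =
        ∑ i : Fin n, ∫ z in (fibS hA ht).P i, W3 (rs (x (Fin.castLE hA.le i) (ap t z)))
          (rs (y (Fin.castLE hA.le i) (ap t z))) (rs (k (Fin.castLE hA.le i) (ap t z))) := rfl
    rw [e1, Finset.mul_sum]
    refine Finset.sum_congr rfl fun i _ => ?_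
    rw [← PF_eq hA ht i, ← integral_const_mul]
    have hms : MeasurableSet (slc (S.P (Fin.castLE hA.le i)) t) := by
      have : Continuous fun y : Cm h => ap t y :=
        H842.HKT.ap_cont.comp (continuous_const.prodMk continuous_id)
      exact this.measurable (meas_P S _)
    refine setIntegral_congr_fun hms fun z hz => ?_
    exact hdens x y k i (ap t z) (ball_subset_ball (by norm_num) (H840.TS.P_sub S _ hz))
  have main := ae_fibre S (meas_P S) (Fin.castLE hA.le) (castLE_inj hA) hΛ hA.pos hε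
    (F := fun q z => F (S.σ q z)) (fun k z hz => hA.eq k z hz)
    (fun q hq z hz l hl hmem => by
      obtain ⟨k, rfl⟩ := hl
      have h1 := out hA hq hz k⁻¹
      rw [cinv, ← sub_eq_add_neg] at h1
      exact absurd (mem_ball_iff_norm.1 hmem) (not_lt.2 h1))
    (fun q z => W4 (dF S F q z) (x q z) (y q z) (kw w q z))
    (fun q z => W4 (dF S F q z) (kw w q z) (kw w q z) (kw w q z))
    (hcont x y (kw w) hx hy hk) (hcont (kw w) (kw w) (kw w) hk hk hk)
    (bT (quo S) (dF S F) (kw w) (kw w) (kw w)) (bT (quo S) (dF S F) x y (kw w))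
    (fun φ hφ hper => by
      have h1 := char a (a + h) E K S w M F c φ x y (kw w) (by omega) hw hb hφ
        (fun t γ => hper t (c γ) ⟨γ, rfl⟩) hx hy hk
      have h3 := quo_int S fun i z => φ (F (S.σ i z)) *
        W4 (dF S F i z) (x i z) (y i z) (kw w i z)
      have h4 := quo_int S fun i z => φ (F (S.σ i z)) *
        W4 (dF S F i z) (kw w i z) (kw w i z) (kw w i z)
      exact (congrArg (fun r => bT (quo S) (dF S F) (kw w) (kw w) (kw w) * r) h3.symm).trans
        (h1.trans (congrArg (fun r => bT (quo S) (dF S F) x y (kw w) * r) h4)))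
  have hε0 : ((ε ^ (2 * a) : ℝ) : ℂ) ≠ 0 := by
    exact_mod_cast (pow_pos hA.pos _).ne'
  filter_upwards [main] with t ht1 ht
  have e2 : ∀ k : Fin S.N → Cm (a + h) → L2 (a + h), k = kw w →
      sl hA k t = kw (slm hA w t) := by
    rintro k rfl
    funext i z
    exact rs_kf _
  have h7 : ∀ k : Fin S.N → Cm (a + h) → L2 (a + h), k = kw w →
      (∑ i : Fin n, ∫ z in slc (S.P (Fin.castLE hA.le i)) t,
        W4 (dF S F (Fin.castLE hA.le i) (ap t z)) (x (Fin.castLE hA.le i) (ap t z))
          (y (Fin.castLE hA.le i) (ap t z)) (k (Fin.castLE hA.le i) (ap t z)) =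
      ((ε ^ (2 * a) : ℝ) : ℂ) * bW (fibS hA ht) (sl hA x t) (sl hA y t) (kw (slm hA w t))) ∧
      (∑ i : Fin n, ∫ z in slc (S.P (Fin.castLE hA.le i)) t,
        W4 (dF S F (Fin.castLE hA.le i) (ap t z)) (k (Fin.castLE hA.le i) (ap t z))
          (k (Fin.castLE hA.le i) (ap t z)) (k (Fin.castLE hA.le i) (ap t z)) =
      ((ε ^ (2 * a) : ℝ) : ℂ) * bW (fibS hA ht) (kw (slm hA w t)) (kw (slm hA w t))
        (kw (slm hA w t))) := by
    intro k hk
    have h5 := hslice x y k t ht
    have h6 := hslice k k k t ht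
    have h8 := e2 k hk
    exact ⟨h5.trans (congrArg (fun r => ((ε ^ (2 * a) : ℝ) : ℂ) *
        bW (fibS hA ht) (sl hA x t) (sl hA y t) r) h8),
      h6.trans (congrArg (fun r => ((ε ^ (2 * a) : ℝ) : ℂ) * bW (fibS hA ht) r r r) h8)⟩
  obtain ⟨h5, h6⟩ := h7 _ rfl
  have h3 := (congrArg (fun r => bT (quo S) (dF S F) (kw w) (kw w) (kw w) * r) h5.symm).trans
    ((ht1 ht).trans (congrArg (fun r => bT (quo S) (dF S F) x y (kw w) * r) h6))
  have h4 : ((ε ^ (2 * a) : ℝ) : ℂ) * (bT (quo S) (dF S F) (kw w) (kw w) (kw w) *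
        bW (fibS hA ht) (sl hA x t) (sl hA y t) (kw (slm hA w t))) =
      ((ε ^ (2 * a) : ℝ) : ℂ) * (bT (quo S) (dF S F) x y (kw w) *
        bW (fibS hA ht) (kw (slm hA w t)) (kw (slm hA w t)) (kw (slm hA w t))) := by
    linear_combination h3
  exact mul_left_cancel₀ hε0 h4

end Vale.Agent.P281.H225.RC
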