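import Vale.Agent.P281.H702.HKT.Har

/-!
# P281, project T-HKT, class C (helper225): `ψ` gives a basis of the additive functions
-/

open Set Filter Metric Vale.Agent.P281 Vale.Agent.P272.K
open scoped Topology ContDiff Manifold

noncomputable section

set_option maxSynthPendingDepth 3

namespace Vale.Agent.P281.H225.RC

open Vale.Agent.P281.H64.TK (Sheets Add IsBas)
open Vale.Agent.P281.H191.RC (Sml2 PsiT)
open Vale.Agent.P281.H702.HKT

section
variable {d a h : ℕ} {E K H : Type} [TopologicalSpace E] [Group K] [MulAction K E]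
  [TopologicalSpace H] [ChartedSpace (Cm h) H] {S : Sheets d E K} {ψ : E → Cm a × H}
  {l : K → Cm a} {A : Set (Cm a × H)}

theorem sheet_cont (S : Sheets d E K) (j : Fin S.N) {z : Cm d} (hz : z ∈ ball (0 : Cm d) 3) :
    ContinuousAt (S.σ j) z := (S.map_nhds j z hz).le

/-- A local inverse of `ψ` off `A`. -/
theorem exists_sec (hd : d = a + h) (hψ : PsiT (h := h) S ψ l A) {e : Chart h H}
    (he : e ∈ atlas (Cm h) H) {r : Cm a × Cm h} (hr : r ∈ Dom a e) (hrA : r ∈ Off A e) :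
    ∃ (k : K) (j : Fin S.N) (θ : Cm a × Cm h → Cm d), AnalyticAt ℂ θ r ∧
      θ r ∈ ball (0 : Cm d) 3 ∧
      ∀ᶠ r' in 𝓝 r, ψ (k • S.σ j (θ r')) = (r'.1, e.symm r'.2) := by
  obtain ⟨e₁, he₁⟩ := hψ.surj (r.1, e.symm r.2)
  obtain ⟨k, j, z, hz, hσ⟩ := S.cover e₁
  have hz' : z ∈ ball (0 : Cm d) 3 := by
    rw [mem_ball_zero_iff]
    linarith
  have h1 : ((ψ (S.σ j z)).1 + l k, (ψ (S.σ j z)).2) = (r.1, e.symm r.2) := by
    rw [← hψ.eqv, hσ, he₁]
  have h2 : (ψ (S.σ j z)).1 + l k = r.1 := congrArg Prod.fst h1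
  have h3 : (ψ (S.σ j z)).2 = e.symm r.2 := congrArg Prod.snd h1
  have hsrc : (ψ (S.σ j z)).2 ∈ e.source := by
    rw [h3]
    exact e.map_target hr
  have hnA : ψ (S.σ j z) ∉ A := by
    intro h4
    have h5 := (hψ.inv k _).2 h4
    rw [h1] at h5
    exact hrA h5
  set κ : Cm d → Cm a × Cm h := fun v => ((ψ (S.σ j v)).1, e (ψ (S.σ j v)).2) with hκ
  have han : AnalyticAt ℂ κ z := hψ.hol j z hz' e he hsrc
  have hinj : Function.Injective (fderiv ℂ κ z) := hψ.nd j z hz' e he hsrc hnA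
  have hfin : Module.finrank ℂ (Cm d) = Module.finrank ℂ (Cm a × Cm h) := by simp [hd]
  have hsur : Function.Surjective (fderiv ℂ κ z) :=
    (LinearMap.injective_iff_surjective_of_finrank_eq_finrank
      (f := (fderiv ℂ κ z).toLinearMap) hfin).1 hinj
  let i : Cm d ≃L[ℂ] Cm a × Cm h :=
    (LinearEquiv.ofBijective (fderiv ℂ κ z).toLinearMap ⟨hinj, hsur⟩).toContinuousLinearEquiv
  have hi : HasFDerivAt κ (i : Cm d →L[ℂ] Cm a × Cm h) z := han.differentiableAt.hasFDerivAt
  have hn : (ω : WithTop ℕ∞) ≠ 0 := by simp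
  have h0 : ContDiffAt ℂ ω κ z := han.contDiffAt
  have k1 := h0.to_localInverse hi hn
  have k2 := h0.localInverse_apply_image hi hn
  have k3 : ∀ᶠ u in 𝓝 (κ z), κ (h0.localInverse hi hn u) = u :=
    (h0.hasStrictFDerivAt' hi hn).eventually_right_inverse
  have k4 : AnalyticAt ℂ (h0.localInverse hi hn) (κ z) := k1.analyticAt
  generalize h0.localInverse hi hn = χ at k1 k2 k3 k4
  have hκz : κ z = (r.1 - l k, r.2) := by
    refine Prod.ext ?_ ?_
    · show (ψ (S.σ j z)).1 = r.1 - l k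
      rw [← h2, add_sub_cancel_right]
    · show e (ψ (S.σ j z)).2 = r.2
      rw [h3, e.right_inv hr]
  have hT : AnalyticAt ℂ (fun r' : Cm a × Cm h => (r'.1 - l k, r'.2)) r :=
    (analyticAt_fst.sub analyticAt_const).prod analyticAt_snd
  rw [hκz] at k2 k3 k4
  have hχT : AnalyticAt ℂ (fun r' : Cm a × Cm h => χ (r'.1 - l k, r'.2)) r :=
    AnalyticAt.fun_comp (g := χ) k4 hT
  refine ⟨k, j, fun r' => χ (r'.1 - l k, r'.2), hχT, ?_, ?_⟩
  · show χ (r.1 - l k, r.2) ∈ _
    rw [k2]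
    exact hz'
  · have c1 : Tendsto (fun r' : Cm a × Cm h => χ (r'.1 - l k, r'.2)) (𝓝 r) (𝓝 z) := by
      have := hχT.continuousAt.tendsto
      rwa [k2] at this
    have c2 : Tendsto (fun r' : Cm a × Cm h => ψ (S.σ j (χ (r'.1 - l k, r'.2)))) (𝓝 r)
        (𝓝 (ψ (S.σ j z))) :=
      ((hψ.cont.continuousAt (x := S.σ j z)).tendsto.comp (sheet_cont S j hz').tendsto).comp c1
    have c3 : ∀ᶠ r' : Cm a × Cm h in 𝓝 r, (ψ (S.σ j (χ (r'.1 - l k, r'.2)))).2 ∈ e.source :=
      ((continuous_snd.tendsto _).comp c2).eventually (e.open_source.mem_nhds hsrc)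
    have c4 : ∀ᶠ r' : Cm a × Cm h in 𝓝 r, κ (χ (r'.1 - l k, r'.2)) = (r'.1 - l k, r'.2) :=
      hT.continuousAt.eventually k3
    filter_upwards [c3, c4] with r' d1 d2
    have d3 : (ψ (S.σ j (χ (r'.1 - l k, r'.2)))).1 = r'.1 - l k := congrArg Prod.fst d2
    have d4 : e (ψ (S.σ j (χ (r'.1 - l k, r'.2)))).2 = r'.2 := congrArg Prod.snd d2
    rw [hψ.eqv]
    refine Prod.ext ?_ ?_
    · show (ψ (S.σ j (χ (r'.1 - l k, r'.2)))).1 + l k = r'.1
      rw [d3, sub_add_cancel]
    · exact (e.left_inv d1).symm.trans (congrArg e.symm d4)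

/-- A right inverse of `ψ`. -/
def ph (hψ : PsiT (h := h) S ψ l A) (q : Cm a × H) : E := (hψ.surj q).choose

theorem ph_spec (hψ : PsiT (h := h) S ψ l A) (q : Cm a × H) : ψ (ph hψ q) = q :=
  (hψ.surj q).choose_spec

theorem ph_eq (hψ : PsiT (h := h) S ψ l A) {x : E} (hx : ψ x ∉ A) : ph hψ (ψ x) = x :=
  (hψ.inj x _ (ph_spec hψ _).symm hx).symm

theorem ph_smul (hψ : PsiT (h := h) S ψ l A) (k : K) {q : Cm a × H} (hq : q ∉ A) :
    ph hψ (q.1 + l k, q.2) = k • ph hψ q := by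
  have h1 : ψ (k • ph hψ q) = (q.1 + l k, q.2) := by rw [hψ.eqv, ph_spec hψ]
  rw [← h1]
  exact ph_eq hψ (by rw [h1]; exact fun h => hq ((hψ.inv k q).1 h))

/-- The function `u ∘ ψ⁻¹` in the chart `e`. -/
def Gf (hψ : PsiT (h := h) S ψ l A) (u : E → ℂ) (e : Chart h H) (r : Cm a × Cm h) : ℂ :=
  u (ph hψ (r.1, e.symm r.2))

theorem gf_an (hd : d = a + h) (hψ : PsiT (h := h) S ψ l A) {u : E → ℂ} {b : K → ℂ}
    (hu : Add S u b) {e : Chart h H} (he : e ∈ atlas (Cm h) H) {r : Cm a × Cm h}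
    (hr : r ∈ Dom a e) (hrA : r ∈ Off A e) : AnalyticAt ℂ (Gf hψ u e) r := by
  obtain ⟨k, j, θ, h1, h2, h3⟩ := exists_sec hd hψ he hr hrA
  have h4 : AnalyticAt ℂ (fun v => u (S.σ j v)) (θ r) :=
    MF.analyticAt_of_differentiableOn isOpen_ball (hu.hol j) h2
  have h5 : AnalyticAt ℂ (fun r' => u (S.σ j (θ r')) + b k) r :=
    (AnalyticAt.fun_comp (g := fun v => u (S.σ j v)) h4 h1).add analyticAt_const
  refine h5.congr ?_
  filter_upwards [h3, off_nhds hψ.small.closed hr hrA] with r' d1 d2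
  show u (S.σ j (θ r')) + b k = u (ph hψ (r'.1, e.symm r'.2))
  have d3 : ψ (k • S.σ j (θ r')) ∉ A := by
    rw [d1]
    exact d2
  rw [← d1, ph_eq hψ d3, hu.add]

theorem gf_tr (hψ : PsiT (h := h) S ψ l A) {u : E → ℂ} {b : K → ℂ} (hu : Add S u b)
    {e e' : Chart h H} (k : K) {r : Cm a × Cm h} (hrA : r ∈ Off A e)
    (hr' : e.symm r.2 ∈ e'.source) :
    Gf hψ u e' (tr e e' (l k) r) = Gf hψ u e r + b k := by
  show u (ph hψ (r.1 + l k, e'.symm (e' (e.symm r.2)))) = u (ph hψ (r.1, e.symm r.2)) + b k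
  rw [e'.left_inv hr', ← hu.add, ← ph_smul hψ k hrA]

variable [IsManifold 𝓘(ℂ, Cm h) ω H]

theorem gf_fd (hd : d = a + h) (hψ : PsiT (h := h) S ψ l A) {u : E → ℂ} {b : K → ℂ}
    (hu : Add S u b) {e e' : Chart h H} (he : e ∈ atlas (Cm h) H) (he' : e' ∈ atlas (Cm h) H)
    (k : K) {r : Cm a × Cm h} (hr : r ∈ Dom a e) (hrA : r ∈ Off A e)
    (hr' : e.symm r.2 ∈ e'.source) (U : Cm a × Cm h) :
    fderiv ℂ (Gf hψ u e') (tr e e' (l k) r) (U.1, fderiv ℂ (fun u => e' (e.symm u)) r.2 U.2) =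
      fderiv ℂ (Gf hψ u e) r U := by
  have h1 : tr e e' (l k) r ∈ Dom a e' := e'.map_source hr'
  have h2 : tr e e' (l k) r ∈ Off A e' := by
    show (r.1 + l k, e'.symm (e' (e.symm r.2))) ∉ A
    rw [e'.left_inv hr']
    exact fun h => hrA ((hψ.inv k (r.1, e.symm r.2)).1 h)
  have h3 := (gf_an hd hψ hu he' h1 h2).differentiableAt.hasFDerivAt
  have h4 := (tr_an' he he' hr hr' (l k)).differentiableAt.hasFDerivAt
  have h5 := (h3.comp r h4)
  have h6 : (Gf hψ u e' ∘ tr e e' (l k)) =ᶠ[𝓝 r] fun r => Gf hψ u e r + b k := by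
    have c1 : ContinuousAt (fun r' : Cm a × Cm h => e.symm r'.2) r :=
      ContinuousAt.comp (g := e.symm) (e.continuousAt_symm hr) continuous_snd.continuousAt
    filter_upwards [off_nhds hψ.small.closed hr hrA,
      c1.eventually (e'.open_source.mem_nhds hr')] with r' d1 d2
    exact gf_tr hψ hu k d1 d2
  have h7 := h5.congr_of_eventuallyEq h6.symm
  have h8 := ((gf_an hd hψ hu he hr hrA).differentiableAt.hasFDerivAt).add_const (b k)
  have h9 := congrArg (fun T : Cm a × Cm h →L[ℂ] ℂ => T U) (h8.unique h7)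
  rw [← tr_fd he he' hr hr' (l k) U]
  exact h9.symm

/-- `d(u ∘ ψ⁻¹)` is a closed periodic form. -/
theorem gf_pf (hd : d = a + h) (hψ : PsiT (h := h) S ψ l A) {u : E → ℂ} {b : K → ℂ}
    (hu : Add S u b) (h1 : l 1 = 0) :
    PF1A (range l) A (fun e => fderiv ℂ (Gf hψ u e)) where
  an e he r hr hrA := (gf_an hd hψ hu he hr hrA).fderiv
  closed e he r hr hrA := sym2 (gf_an hd hψ hu he hr hrA)
  change e he e' he' z x hx hxA U := by
    have h2 : e.symm (e x) = x := e.left_inv hx.1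
    have h3 : (z, e x) ∈ Off A e := by
      show (z, e.symm (e x)) ∉ A
      rwa [h2]
    have h4 := gf_fd hd hψ hu he he' 1 (r := (z, e x)) (e.map_source hx.1) h3
      (by rw [h2]; exact hx.2) U
    rw [← h4]
    have h5 : tr e e' (l 1) (z, e x) = (z, e' x) := by
      show (z + l 1, e' (e.symm (e x))) = _
      rw [h1, add_zero, h2]
    rw [h5]
  per e he L hL r hr hrA := by
    obtain ⟨k, rfl⟩ := hL
    refine ContinuousLinearMap.ext fun U => ?_
    have h4 := gf_fd hd hψ hu he he k hr hrA (e.map_target hr) U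
    have h5 : tr e e (l k) r = (r.1 + l k, r.2) := by
      show (r.1 + l k, e (e.symm r.2)) = _
      rw [e.right_inv hr]
    have h6 : fderiv ℂ (fun u => e (e.symm u)) r.2 U.2 = U.2 := by
      have h7 : (fun u => e (e.symm u)) =ᶠ[𝓝 r.2] fun u => u := by
        filter_upwards [e.open_target.mem_nhds hr] with u hu
        exact e.right_inv hu
      rw [h7.fderiv_eq]
      simp
    rw [h5, h6] at h4
    exact h4

/-- **the first components of `ψ` are a basis of the additive functions** -/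
theorem isBas_psi (hd : d = a + h) [ContinuousConstSMul K E] [PreconnectedSpace E]
    [CompactSpace H] [SimplyConnectedSpace H] (hψ : PsiT (h := h) S ψ l A)
    (hcpt : ∃ C : Set (Cm a), IsCompact C ∧ ∀ z, ∃ k : K, z + l k ∈ C) :
    IsBas S (fun e => (ψ e).1) l := by
  have hL : Coco (range l) := by
    obtain ⟨C, hC, h1⟩ := hcpt
    exact ⟨C, hC, fun z => by obtain ⟨k, hk⟩ := h1 z; exact ⟨l k, ⟨k, rfl⟩, hk⟩⟩
  obtain ⟨x₀⟩ : Nonempty H := inferInstance
  obtain ⟨e₀, -⟩ := hψ.surj (0, x₀)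
  have hl1 : l 1 = 0 := by
    have h1 := congrArg Prod.fst (hψ.eqv 1 e₀)
    rw [one_smul] at h1
    exact left_eq_add.1 h1
  have hfst : ∀ i, ∀ z ∈ ball (0 : Cm d) 3, AnalyticAt ℂ (fun v => (ψ (S.σ i v)).1) z := by
    intro i z hz
    have h1 := hψ.hol i z hz (chartAt (Cm h) (ψ (S.σ i z)).2) (chart_mem_atlas _ _)
      (mem_chart_source _ _)
    exact AnalyticAt.fun_comp (g := fun q : Cm a × Cm h => q.1) analyticAt_fst h1
  refine ⟨fun j => ⟨fun i z hz => ?_, fun γ e => ?_⟩, fun s hs => ?_, fun u b hu => ?_⟩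
  · have h2 : AnalyticAt ℂ (fun v => (ψ (S.σ i v)).1 j) z :=
      ((ContinuousLinearMap.proj (R := ℂ) (φ := fun _ : Fin a => ℂ) j).analyticAt _).comp
        (hfst i z hz)
    exact h2.differentiableAt.differentiableWithinAt
  · show (ψ (γ • e)).1 j = (ψ e).1 j + l γ j
    rw [hψ.eqv]
    rfl
  · have h1 : ∀ z z' : Cm a, ∑ j, s j * z j = ∑ j, s j * z' j := by
      refine const_of_per (f := fun z : Cm a => ∑ j, s j * z j) hL (fun z => ?_) ?_
      · exact Finset.analyticAt_fun_sum _ fun j _ => analyticAt_const.mul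
          ((ContinuousLinearMap.proj (R := ℂ) (φ := fun _ : Fin a => ℂ) j).analyticAt _)
      · rintro _ ⟨k, rfl⟩ z
        simp only [Pi.add_apply, mul_add, Finset.sum_add_distrib]
        rw [hs k, add_zero]
    funext j
    have h2 := h1 (Pi.single j 1) 0
    simpa [Pi.single_apply] using h2
  · obtain ⟨B', hB', hBB⟩ := pf1_ext (sml_of hψ.small (L := range l) (by
      rintro _ ⟨k, rfl⟩ r
      exact hψ.inv k r)) (gf_pf hd hψ hu hl1)
    obtain ⟨c, hc⟩ := pf1_form hB' hL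
    refine ⟨c, ?_⟩
    set D : E → ℂ := fun e => u e - ∑ j, c j * (ψ e).1 j with hD
    have hDa : ∀ i, ∀ z ∈ ball (0 : Cm d) 3, AnalyticAt ℂ (fun v => D (S.σ i v)) z := by
      intro i z hz
      refine (MF.analyticAt_of_differentiableOn isOpen_ball (hu.hol i) hz).sub ?_
      exact Finset.analyticAt_fun_sum _ fun j _ => analyticAt_const.mul
        (((ContinuousLinearMap.proj (R := ℂ) (φ := fun _ : Fin a => ℂ) j).analyticAt _).comp
          (hfst i z hz))
    have hD0 : ∀ i, ∀ z ∈ ball (0 : Cm d) 3, ψ (S.σ i z) ∉ A →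
        fderiv ℂ (fun v => D (S.σ i v)) z = 0 := by
      intro i z hz hzA
      set e := chartAt (Cm h) (ψ (S.σ i z)).2 with he
      have hem : e ∈ atlas (Cm h) H := chart_mem_atlas _ _
      have hes : (ψ (S.σ i z)).2 ∈ e.source := mem_chart_source _ _
      set κ : Cm d → Cm a × Cm h := fun v => ((ψ (S.σ i v)).1, e (ψ (S.σ i v)).2) with hκ
      have han : AnalyticAt ℂ κ z := hψ.hol i z hz e hem hes
      have hκD : κ z ∈ Dom a e := e.map_source hes
      have hκO : κ z ∈ Off A e := by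
        show ((ψ (S.σ i z)).1, e.symm (e (ψ (S.σ i z)).2)) ∉ A
        rwa [e.left_inv hes]
      have hG := (gf_an hd hψ hu hem hκD hκO).differentiableAt.hasFDerivAt
      have hκ' := han.differentiableAt.hasFDerivAt
      have hcomp := hG.comp z hκ'
      have hcont : ContinuousAt (fun v => ψ (S.σ i v)) z :=
        ContinuousAt.comp (g := ψ) hψ.cont.continuousAt (sheet_cont S i hz)
      have hev : (Gf hψ u e ∘ κ) =ᶠ[𝓝 z] fun v => u (S.σ i v) := by
        filter_upwards [hcont.eventually (hψ.small.closed.isOpen_compl.mem_nhds hzA),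
          (continuous_snd.continuousAt.comp hcont).eventually (e.open_source.mem_nhds hes)]
          with v d1 d2
        show u (ph hψ ((ψ (S.σ i v)).1, e.symm (e (ψ (S.σ i v)).2))) = _
        have d3 : e.symm (e (ψ (S.σ i v)).2) = (ψ (S.σ i v)).2 := e.left_inv d2
        rw [d3, Prod.mk.eta, ph_eq hψ d1]
      have h1 := hcomp.congr_of_eventuallyEq hev.symm
      have h2 : HasFDerivAt (fun v => ∑ j, c j * (ψ (S.σ i v)).1 j)
          (∑ j, c j • ((ContinuousLinearMap.proj (R := ℂ) (φ := fun _ : Fin a => ℂ) j).comp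
            ((ContinuousLinearMap.fst ℂ (Cm a) (Cm h)).comp (fderiv ℂ κ z)))) z := by
        refine HasFDerivAt.fun_sum fun j _ => ?_
        exact (((ContinuousLinearMap.proj (R := ℂ) (φ := fun _ : Fin a => ℂ) j).comp
          (ContinuousLinearMap.fst ℂ (Cm a) (Cm h))).hasFDerivAt.comp z hκ').const_mul (c j)
      have h3 := (h1.sub h2).fderiv
      rw [show (fun v => D (S.σ i v)) = fun v => u (S.σ i v) - ∑ j, c j * (ψ (S.σ i v)).1 j
        from rfl]
      refine h3.trans ?_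
      refine ContinuousLinearMap.ext fun U => ?_
      have h4 : fderiv ℂ (Gf hψ u e) (κ z) (fderiv ℂ κ z U) =
          ∑ j, c j * (fderiv ℂ κ z U).1 j := by
        rw [← hBB e hem (κ z) hκD hκO]
        exact hc e hem (κ z).1 (κ z).2 hκD _
      simp only [sub_apply, ContinuousLinearMap.comp_apply, sum_apply,
        smul_apply, ContinuousLinearMap.proj_apply, smul_eq_mul, zero_apply]
      exact sub_eq_zero.2 h4
    have hDz : ∀ i, ∀ z ∈ ball (0 : Cm d) 3, fderiv ℂ (fun v => D (S.σ i v)) z = 0 := by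
      intro i z hz
      by_contra hne
      have h1 : ContinuousAt (fderiv ℂ (fun v => D (S.σ i v))) z := (hDa i z hz).fderiv.continuousAt
      obtain ⟨w, hwU, hwb, hwA⟩ := hψ.dense i z hz _ (h1.eventually_ne hne)
      exact hwU (hD0 i w hwb hwA)
    have hloc : ∀ i, ∀ z ∈ ball (0 : Cm d) 3, ∀ᶠ v in 𝓝 z, D (S.σ i v) = D (S.σ i z) := by
      intro i z hz
      filter_upwards [isOpen_ball.mem_nhds hz] with v hv
      exact (convex_ball (0 : Cm d) 3).is_const_of_fderivWithin_eq_zero (𝕜 := ℂ)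
        (fun w hw => (hDa i w hw).differentiableAt.differentiableWithinAt)
        (fun w hw => by
          rw [fderivWithin_of_isOpen isOpen_ball hw]
          exact hDz i w hw) hv hz
    have hDs : ∀ (k : K) (e : E), D (k • e) = D e + (b k - ∑ j, c j * l k j) := by
      intro k e
      show u (k • e) - ∑ j, c j * (ψ (k • e)).1 j = u e - ∑ j, c j * (ψ e).1 j + _
      rw [hu.add, hψ.eqv]
      simp only [Pi.add_apply, mul_add, Finset.sum_add_distrib]
      ring
    have hconst : IsLocallyConstant D := by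
      rw [IsLocallyConstant.iff_eventually_eq]
      intro e
      obtain ⟨k, i, z, hz, rfl⟩ := S.cover e
      have hz' : z ∈ ball (0 : Cm d) 3 := by
        rw [mem_ball_zero_iff]
        linarith
      have h1 : ∀ᶠ x in 𝓝 (S.σ i z), D x = D (S.σ i z) := by
        rw [← S.map_nhds i z hz']
        exact hloc i z hz'
      have h2 : ContinuousAt (fun x => k⁻¹ • x) (k • S.σ i z) :=
        (continuous_const_smul k⁻¹).continuousAt
      have h3 : ∀ᶠ x in 𝓝 (k • S.σ i z), D (k⁻¹ • x) = D (S.σ i z) := by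
        refine h2.tendsto.eventually (p := fun y => D y = D (S.σ i z)) ?_
        rwa [inv_smul_smul]
      filter_upwards [h3] with x hx
      have h4 := hDs k (k⁻¹ • x)
      rw [smul_inv_smul] at h4
      rw [h4, hx, hDs]
    intro k
    have h1 := hconst.apply_eq_of_preconnectedSpace (k • e₀) e₀
    rw [hDs] at h1
    have h2 := add_eq_left.1 h1
    exact sub_eq_zero.1 h2

end

end Vale.Agent.P281.H225.RC
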