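import Vale.Agent.P281.H152.RC.Spec
import Vale.Agent.P281.H225.R5.Fub

/-!
# P281, project RADC (helper225), block R5: Fubini
-/

open Set Filter Metric MeasureTheory Vale.Agent.P272.K
open scoped Topology ContDiff ComplexConjugate ComplexOrder Pointwise

noncomputable section

namespace Vale.Agent.P281.H225.RC

open Vale.Agent.P281.H64.TK Vale.Agent.P281.H64.TK.TS
open Vale.Agent.P281.H399.QT (One1 Qs pj quo pj_eq)
open Vale.Agent.P281.H842.HKT (p1 p2 ap pe p1_ap p2_ap ap_p norm_eq mem_ball_iff ap_mem)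
open Vale.Agent.P281.H152.RC
open Vale.Agent.P281.H225.R5

section
variable {d : ℕ} {E K : Type} [TopologicalSpace E] [Group K] [MulAction K E]

/-- the fundamental domains of the quotient -/
theorem quo_P [T2Space E] [ContinuousConstSMul K E] (S : Sheets d E K) (i : Fin S.N) :
    (quo S).P i = S.P i := by
  ext z
  constructor
  · rintro ⟨h1, h2⟩
    refine ⟨h1, fun j hj γ w hw h3 => h2 j hj 1 w hw ?_⟩
    show pj K (S.σ j w) = pj K (S.σ i z)
    exact (pj_eq.2 ⟨γ, h3⟩).symm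
  · rintro ⟨h1, h2⟩
    refine ⟨h1, fun j hj γ w hw h3 => ?_⟩
    have h4 : pj K (S.σ i z) = pj K (S.σ j w) := Eq.symm h3
    obtain ⟨γ', h5⟩ := pj_eq.1 h4
    exact h2 j hj γ' w hw h5

theorem meas_P [T2Space E] [ContinuousConstSMul K E] (S : Sheets d E K) (i : Fin S.N) :
    MeasurableSet (S.P i) := by
  rw [← quo_P S i]
  exact H840.TS.meas_P (quo S) i

end

section
variable {a h : ℕ} {E K : Type} [TopologicalSpace E] [T2Space E] [Group K] [MulAction K E]
  {S : Sheets (a + h) E K} {F : E → Fin a → ℂ} {c : K → Fin a → ℂ} {t₀ : Cm a} {ε : ℝ} {n : ℕ}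

theorem castLE_inj (hA : Adp S F c t₀ ε n) :
    Function.Injective (Fin.castLE hA.le : Fin n → Fin S.N) := Fin.castLE_injective hA.le

theorem PF_eq (hA : Adp S F c t₀ ε n) {t : Cm a} (ht : t ∈ ball (0 : Cm a) 1) (i : Fin n) :
    PF hA i t = (fibS hA ht).P i := by
  ext z
  constructor
  · rintro ⟨h1, h2⟩
    have hz : ‖z‖ < 1 := by
      rw [norm_eq, p2_ap] at h1
      exact (max_lt_iff.1 h1).2
    refine ⟨hz, fun j hj γ w hw h3 => ?_⟩
    have h4 : fbσ hA ht j w = fbσ hA ht i z := h3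
    have h5 := congrArg Subtype.val h4
    rw [fbσ_val hA ht j (mem_ball_zero_iff.2 (hw.trans (by norm_num))),
      fbσ_val hA ht i (mem_ball_zero_iff.2 (hz.trans (by norm_num)))] at h5
    refine h2 (Fin.castLE hA.le j) ?_ 1 (ap t w) ?_ (by rw [one_smul]; exact h5)
    · exact Fin.lt_def.2 (Fin.lt_def.1 hj)
    · exact mem_ball_zero_iff.1 (ap_mem ht (mem_ball_zero_iff.2 hw))
  · rintro ⟨h1, h2⟩
    have hz1 : z ∈ ball (0 : Cm h) 1 := mem_ball_zero_iff.2 h1
    have hap : ap t z ∈ ball (0 : Cm (a + h)) 1 := ap_mem ht hz1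
    refine ⟨mem_ball_zero_iff.1 hap, fun j hj γ w hw h3 => ?_⟩
    have hjn : j.val < n := (Fin.lt_def.1 hj).trans i.isLt
    have hj' : Fin.castLE hA.le ⟨j.val, hjn⟩ = j := Fin.ext rfl
    have hw3 : w ∈ ball (0 : Cm (a + h)) 3 := mem_ball_zero_iff.2 (hw.trans (by norm_num))
    have hz3 : ap t z ∈ ball (0 : Cm (a + h)) 3 := ball_subset_ball (by norm_num) hap
    rw [← hj'] at h3
    obtain ⟨h4, h5⟩ := eq_of_act hA hw3 hz3 h3
    rw [p1_ap] at h5
    rw [h4, one_smul] at h3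
    have h6 : ‖p2 w‖ < 1 := by
      rw [norm_eq] at hw
      exact (max_lt_iff.1 hw).2
    refine h2 ⟨j.val, hjn⟩ (Fin.lt_def.2 (Fin.lt_def.1 hj)) 1 (p2 w) h6 ?_
    show fbσ hA ht ⟨j.val, hjn⟩ (p2 w) = fbσ hA ht i z
    refine fb_ext ?_
    rw [fbσ_val hA ht _ (mem_ball_zero_iff.2 (h6.trans (by norm_num))),
      fbσ_val hA ht i (ball_subset_ball (by norm_num) hz1), ← h3]
    congr 1
    conv_rhs => rw [← ap_p w, h5]

/-- the sheets which are not adapted do not meet `F⁻¹(ball t₀ ε + c K)` -/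
theorem out (hA : Adp S F c t₀ ε n) {q : Fin S.N} (hq : q ∉ range (Fin.castLE hA.le)) {z : Cm (a + h)}
    (hz : z ∈ S.P q) (k : K) : ε ≤ ‖F (S.σ q z) + c k - t₀‖ := by
  by_contra hlt
  push Not at hlt
  rw [← hA.add] at hlt
  obtain ⟨i, w, hw, he⟩ := hA.cover _ hlt
  have hiq : Fin.castLE hA.le i < q := by
    have hqn : ¬ q.val < n := fun h1 => hq ⟨⟨q.val, h1⟩, Fin.ext rfl⟩
    exact Fin.lt_def.2 (lt_of_lt_of_le i.isLt (not_lt.1 hqn))
  refine hz.2 _ hiq k⁻¹ w (mem_ball_zero_iff.1 hw) ?_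
  rw [he, inv_smul_smul]

end

/-- **R5** -/
theorem fub : FubStmt := by
  intro a h E K _ _ _ _ _ S F c t₀ ε n hA
  refine ⟨fun t ht i => PF_eq hA ht i, fun i D hD =>
    int_slc (meas_P S _) (H840.TS.P_sub S _) hD, fun φ D hφ hper hsupp hD => ?_⟩
  have hFc : ∀ k : Fin n, ContinuousOn
      (fun z => φ (F (S.σ (Fin.castLE hA.le k) z)) * D (Fin.castLE hA.le k) z) (ball 0 3) := by
    intro k
    have h1 : Continuous fun z : Cm (a + h) => t₀ + (ε : ℂ) • p1 z := by
      have : Continuous fun z : Cm (a + h) => p1 z := continuous_fst.comp (pe a h).continuous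
      fun_prop
    have h2 : ContinuousOn (fun z => φ (F (S.σ (Fin.castLE hA.le k) z))) (ball 0 3) :=
      (hφ.comp h1).continuousOn.congr fun z hz => by
        show φ (F (S.σ (Fin.castLE hA.le k) z)) = φ (t₀ + (ε : ℂ) • p1 z)
        rw [hA.eq k z hz]
    exact h2.mul (hD _)
  rw [slice_int S (meas_P S) (Fin.castLE hA.le) (castLE_inj hA) _ hFc (fun q hq z hz => by
    rw [hsupp _ fun k => out hA hq hz k, zero_mul])]
  refine setIntegral_congr_fun measurableSet_ball fun t ht => ?_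
  simp only [Finset.mul_sum]
  refine Finset.sum_congr rfl fun k _ => ?_
  rw [← integral_const_mul]
  have hms : MeasurableSet (slc (S.P (Fin.castLE hA.le k)) t) := by
    have : Continuous fun y : Cm h => ap t y :=
      H842.HKT.ap_cont.comp (continuous_const.prodMk continuous_id)
    exact this.measurable (meas_P S _)
  refine setIntegral_congr_fun hms fun y hy => ?_
  have h1 := hA.eq k (ap t y) (ball_subset_ball (by norm_num) (H840.TS.P_sub S _ hy))
  rw [p1_ap] at h1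
  simp only [h1]

end Vale.Agent.P281.H225.RC
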